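import Vale.Agent.P272.Stmt
import Vale.Agent.P272.Bdl.B1

open Vale.Agent.P272.Stmt

namespace Vale.Agent.Results.P272.L2Covering

/-- Let `X` be a compact complex manifold of dimension `n` and `p : D → X` a holomorphic covering.
If `D` carries a smooth strictly plurisubharmonic function and, for some `m ≥ 1`, the square
integrable holomorphic `m`-canonical forms on `D` generate the `m`-th power of the canonical
bundle over every fibre of `p`, then the canonical bundle of `X` is positive. -/
theorem result {n m : ℕ} (hm : 1 ≤ m)
    {X D : Type*} [TopologicalSpace X] [CompactSpace X] [ChartedSpace (Cn n) X] [IsCplx n X]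
    [TopologicalSpace D] [ChartedSpace (Cn n) D] [IsCplx n D]
    (p : D → X) (hp : HolCovering n p)
    (ρ : D → ℝ) (hρ : StrictlyPSH n ρ)
    (hgen : ∀ x : X, ∃ z : D, p z = x ∧ ∃ s : PluriForm n m D, SquareIntegrable s p ∧
      s.val z ≠ 0) :
    CanonicalPositive n X :=
  Vale.Agent.P272.stmt_main hm p hp ρ hρ hgen

end Vale.Agent.Results.P272.L2Covering
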